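import Vale.Agent.N256.Expl

open Vale.Agent.P256 Vale.Agent.N256

/-- Irreducible counterexamples to the projected Lax conjecture whose cones contain no line exist
in every dimension from 221 on, and from dimension 223 on in every large degree (1).
A hyperbolicity cone which is not a spectrahedral shadow cannot be approximated by sets with
lifts of bounded size (2a), nearby hyperbolicity cones have no small lifts (2b), and among them
are smooth ones, which are shadows (2c). -/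
theorem Vale.Agent.Results.P256.A0LaxFailsRobust.result :
    (∃ d₀ : ℕ, ∀ n d : ℕ, (221 ≤ n ∧ d = d₀) ∨ (223 ≤ n ∧ d₀ ≤ d) →
      ∃ (p : MvPolynomial (Fin n) ℝ) (e : Fin n → ℝ), p.IsHomogeneous d ∧ IsHyperbolic p e ∧
        Irreducible p ∧ (∀ x ∈ hypCone p e, -x ∈ hypCone p e → x = 0) ∧
        ¬ IsSpectrahedralShadow (hypCone p e)) ∧
    (∀ (n d : ℕ) (p : MvPolynomial (Fin n) ℝ) (e : Fin n → ℝ), p.IsHomogeneous d →
      IsHyperbolic p e → ¬ IsSpectrahedralShadow (hypCone p e) → ∀ m : ℕ,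
      (∃ ε : ℝ, 0 < ε ∧ ∀ k ≤ m, ∀ S : Set (Fin n → ℝ), HasLift k S →
        ENNReal.ofReal ε ≤ Metric.hausdorffEDist (S ∩ Metric.closedBall 0 1)
          (hypCone p e ∩ Metric.closedBall 0 1)) ∧
      (∃ ε : ℝ, 0 < ε ∧ ∀ q : MvPolynomial (Fin n) ℝ, q.IsHomogeneous d → IsHyperbolic q e →
        (∀ α, |MvPolynomial.coeff α q - MvPolynomial.coeff α p| < ε) →
        ∀ k ≤ m, ¬ HasLift k (hypCone q e)) ∧
      (∀ ε : ℝ, 0 < ε → ∃ q : MvPolynomial (Fin n) ℝ, q.IsHomogeneous d ∧ IsHyperbolic q e ∧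
        (∀ α, |MvPolynomial.coeff α q - MvPolynomial.coeff α p| < ε) ∧
        (∀ z : Fin n → ℝ, z ≠ 0 → MvPolynomial.eval z q = 0 → IsSmoothPoint q z) ∧
        IsSpectrahedralShadow (hypCone q e) ∧ ∀ k ≤ m, ¬ HasLift k (hypCone q e))) :=
  ⟨good_all, fun _ _ _ _ hd hp hns m =>
    ⟨far_cone hp hns m, lsc_coeff hp hd hns m, fun _ hε => smooth_approx hp hd hns m hε⟩⟩
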