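import Vale.Agent.N256b.Fin

open MvPolynomial Vale.Agent.N256b

/-- Every hyperbolicity cone without lines is a linear section of the cone of a symmetric real
stable polynomial in one more variable. -/
theorem Vale.Agent.Results.P256.A0Symmetric.result (n : ℕ) (p : MvPolynomial (Fin (n + 1)) ℝ)
    (e : Fin (n + 1) → ℝ) (hp : Hyperbolic p e)
    (hK : ∀ x ∈ cone p e, -x ∈ cone p e → x = 0) :
    ∃ (P : MvPolynomial (Fin (n + 2)) ℝ) (f : (Fin (n + 1) → ℝ) →ₗ[ℝ] (Fin (n + 2) → ℝ)),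
      P.IsSymmetric ∧ Stable P ∧ Hyperbolic P 1 ∧ cone p e = f ⁻¹' cone P 1 :=
  part6 n p e hp hK
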